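import Vale.Agent.P263B25.Conv
import Vale.Agent.P263B14.NullC
import Vale.Agent.P263B15.Two
import Vale.Agent.P263B87.Susp
import Vale.Agent.P263B19.Row
import Vale.Agent.P263B90.Row
import Vale.Agent.P263B94.Row
import Vale.Agent.P263B49.Row
import Vale.Agent.P263B96.Wh
import Vale.Agent.P263B96.Ev
import Vale.Agent.P263B89.MVH
import Vale.Agent.P263B5.Row
import Vale.Agent.P263B92.Rows
import Vale.Agent.P263B36.Cut
import Vale.Agent.P263B64.Split
import Vale.Agent.P263B33.Loopy
import Vale.Agent.P263B33.Ext
import Vale.Agent.P263B71.Fib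
import Vale.Agent.P263B76.Zex
import Vale.Agent.P263B39.Att
import Vale.Agent.P263B39.Kill1
import Vale.Agent.P263B67.Row

/-!
# P263B: assembly of the rows
-/

namespace Vale.Agent.P263B25

theorem two_of_fib (fib : P263B15.FIB) : P263B15.TWO :=
  P263B15.two P263B87.susp P263B19.homeo P263B90.susph P263B94.loopsc P263B94.adj_row
    P263B19.freu P263B49.looph P263B96.whisk P263B96.ev fib (P263B89.mvh P263B5.ke) P263B92.hur
    P263B92.lift

theorem conv_of (fib : P263B15.FIB) (zex : P263B15.ZEX) : P263B15.CONV :=
  conv zex (two_of_fib fib) P263B36.jc P263B14.nullc P263B36.cut P263B64.split P263B33.loopy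

theorem zexA : P263B15.ZEX :=
  P263B76.zex P263B39.att P263B33.ext1 P263B33.ext2 P263B67.stepsc P263B39.kill1 P263B67.kill2
    P263B67.kill3

/-- **The converse, without hypotheses.** -/
theorem convFull : P263B15.CONV := conv_of P263B71.fib zexA

end Vale.Agent.P263B25
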