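import Vale.Agent.P263B15.Rows
import Vale.Agent.P263.FR.H663.BoolC
import Vale.Agent.P263.T0.Based

/-!
# P263B: the converse from the rows

`conv : ZEX → TWO → JC → NULLC → CUT → SPLIT → LOOPY → CONV`.
-/

open Topology Set OnePoint CategoryTheory

namespace Vale.Agent.P263B25

open Vale.Agent.P263 Vale.Agent.P263B15
open Vale.Agent.P263.FR Vale.Agent.P263.TJ Vale.Agent.P263.G2 Vale.Agent.P263.E
open Vale.Agent.P263.AD.Freu

theorem pc_TT (P : Type) [TopologicalSpace P] [CompactSpace P] [T2Space P] :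
    PathConnectedSpace (TT 1 P) := by
  have := T0.pathConnectedSpace_sph (d := 1) one_pos
  have h : ∀ z : TT 1 P, Joined (∞ : TT 1 P) z := by
    intro z
    induction z using OnePoint.rec with
    | infty => exact Joined.refl _
    | coe e =>
      obtain ⟨γ⟩ : Joined (∞ : T0.Sph 1) (e.1 : T0.Sph 1) := PathConnectedSpace.joined _ _
      have hc : Continuous fun w : T0.Sph 1 => smP 1 P (w, e.2) :=
        (smP 1 P).continuous.comp (Continuous.prodMk_left e.2)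
      exact ⟨γ.map hc⟩
  exact ⟨⟨∞⟩, fun x y => (h x).symm.trans (h y)⟩

section

variable {N : Type} [TopologicalSpace N] [CompactSpace N] [T2Space N]
  {K : Type} [TopologicalSpace K] [T2Space K] {m n : ℕ}

/-- a homotopy in the model gives a stable homotopy over a compact space -/
theorem st_of_model (hCUT : CUT) (hS : SPLIT) (k₀ : K) {c : C(Sp m, TT n N)} (hc : c ∞ = ∞)
    (f f' : C(N, K)) {g g' : C(Sp m, SuN n k₀)} (hg : ∀ z, g z = JF n k₀ f (c z))
    (hg' : ∀ z, g' z = JF n k₀ f' (c z)) (h : g.HomotopicRel g' {∞}) :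
    ∃ (Y : Set K) (_ : CompactSpace Y) (l l' : C(N, Y)), (∀ p, (l p).1 = f p) ∧
      (∀ p, (l' p).1 = f' p) ∧ k₀ ∈ Y ∧
      StHtpc (m := m) (n := n) (X := TopCat.of Y) ((thm (K := n) l).comp c)
        ((thm (K := n) l').comp c) := by
  obtain ⟨Y, h₀, hf, hf', a, a', hY, ha, ha', hH⟩ := hCUT m n N K k₀ c f f' g g' hc hg hg' h
  have hY' : CompactSpace Y := isCompact_iff_compactSpace.1 hY
  exact ⟨Y, hY', ⟨fun p => ⟨f p, hf p⟩, f.continuous.subtype_mk _⟩,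
    ⟨fun p => ⟨f' p, hf' p⟩, f'.continuous.subtype_mk _⟩, fun _ => rfl, fun _ => rfl, h₀,
    hS m n N Y ⟨k₀, h₀⟩ c _ _ a a' hc ha ha' hH⟩

omit [CompactSpace N] [T2Space N] [T2Space K] in
theorem pull_val {Y : Set K} {l : C(N, Y)} {f : C(N, K)} (h : ∀ p, (l p).1 = f p)
    (y : Cc (sing K)) : Cc.pull (singMap l) (Cc.pull (singMap
      (⟨Subtype.val, continuous_subtype_val⟩ : C(Y, K))) y) = Cc.pull (singMap f) y := by
  funext p σ
  exact congrArg (y p) (ContinuousMap.ext fun t => h _)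

/-- homotopic maps in the model have the same value of the form -/
theorem phi_of_model (hCUT : CUT) (hS : SPLIT) (k₀ : K) {d i q : ℕ} (hd : 0 < d)
    {c : C(Sp (d + (i + 1)), TT (i + 1) N)} (hc : c ∞ = ∞)
    (f f' : C(N, K)) {g g' : C(Sp (d + (i + 1)), SuN (i + 1) k₀)}
    (hg : ∀ z, g z = JF (i + 1) k₀ f (c z)) (hg' : ∀ z, g' z = JF (i + 1) k₀ f' (c z))
    (h : g.HomotopicRel g' {∞}) {y : Cc (sing K)} (hy : Cc.IsDeg q y) (dy : Cc.d y = 0)
    {u u' : Cc (sing N)} (hu : Cc.IsDeg q u) (du : Cc.d u = 0) (hu' : Cc.IsDeg q u')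
    (du' : Cc.d u' = 0) (e : (Cc.cupC (sing N)).Coh (Cc.pull (singMap f) y) u)
    (e' : (Cc.cupC (sing N)).Coh (Cc.pull (singMap f') y) u') :
    Phi c hc hu du = Phi c hc hu' du' := by
  obtain ⟨Y, hY, l, l', hl, hl', -, hst⟩ := st_of_model hCUT hS k₀ hc f f' hg hg' h
  obtain ⟨y', hy'⟩ : ∃ y' : Cc (sing Y), y' = Cc.pull (singMap
    (⟨Subtype.val, continuous_subtype_val⟩ : C(Y, K))) y := ⟨_, rfl⟩
  have h1 : Cc.IsDeg q y' := by rw [hy']; exact hy.pull _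
  have h2 : Cc.d y' = 0 := by rw [hy', ← pull_d, dy, pull_zero]
  have hb : ∀ l : C(N, Y), ((thm (K := i + 1) l).comp c) ∞ = ∞ := fun l => by
    show thm l (c ∞) = ∞
    rw [hc]
    rfl
  have hp : ∀ l : C(N, Y), Cc.d (Cc.pull (singMap l) y') = 0 := fun l => by
    rw [← pull_d, h2, pull_zero]
  have h3 : Phi ((thm l).comp c) (hb l) h1 h2 = Phi ((thm l').comp c) (hb l') h1 h2 :=
    Phi_stHtpc (Y := TopCat.of Y) hd (hb l) (hb l') hst h1 h2
  rw [Phi_nat (hc := hc) l hd h1 h2 (h1.pull _) (hp l),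
    Phi_nat (hc := hc) l' hd h1 h2 (h1.pull _) (hp l')] at h3
  rw [← Phi_coh hd (h1.pull _) (hp l) hu du (by rw [hy', pull_val hl]; exact e),
    ← Phi_coh hd (h1.pull _) (hp l') hu' du' (by rw [hy', pull_val hl']; exact e'), h3]

end

/-- a null homotopy in the model gives `PhiZero` -/
theorem phiZero_of_model (hCUT : CUT) (hS : SPLIT) {N : TopCat.{0}} [CompactSpace N] [T2Space N]
    {K : Type} [TopologicalSpace K] [T2Space K] (k₀ : K) {m n q : ℕ}
    {c : ST.Sph m ⟶ Th n N} {cN : C(Sp m, TT n N)} (hc : cN ∞ = ∞) (he : ∀ z, c z = cN z)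
    (f : C(N, K)) {g g' : C(Sp m, SuN n k₀)} (hg : ∀ z, g z = JF n k₀ f (cN z))
    (hg' : ∀ z, g' z = JF n k₀ (fun _ => k₀) (cN z)) (h : g.HomotopicRel g' {∞})
    {y : Cc (sing K)} (hy : Cc.IsDeg q y) (dy : Cc.d y = 0) {u : Cc (sing N)}
    (hu : Cc.IsDeg q u) (du : Cc.d u = 0)
    (e : (Cc.cupC (sing N)).Coh (Cc.pull (singMap f) y) u) : PhiZero c (FR.cl q u du) := by
  obtain ⟨Y, hY, l, l', hl, hl', h₀, hst⟩ :=
    st_of_model hCUT hS k₀ hc f (ContinuousMap.const N k₀) hg hg' h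
  obtain ⟨y', hy'⟩ : ∃ y' : Cc (sing Y), y' = Cc.pull (singMap
    (⟨Subtype.val, continuous_subtype_val⟩ : C(Y, K))) y := ⟨_, rfl⟩
  have h1 : Cc.IsDeg q y' := by rw [hy']; exact hy.pull _
  have h2 : Cc.d y' = 0 := by rw [hy', ← pull_d, dy, pull_zero]
  have h3 : Cc.d (Cc.pull (singMap l) y') = 0 := by rw [← pull_d, h2, pull_zero]
  refine ⟨TopCat.of Y, TopCat.ofHom l, FR.cl (X := TopCat.of Y) q y' h2, ⟨k₀, h₀⟩, hY,
    inferInstanceAs (T2Space Y), ?_, ?_⟩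
  · refine (pull_cl (X := N) (Y := TopCat.of Y) (TopCat.ofHom l) y' h2 h3).trans ?_
    refine (cl_eq_iff h3 du (h1.pull _) hu).2 ?_
    have h4 : Cc.pull (singMap l) y' = Cc.pull (singMap f) y := by rw [hy', pull_val hl]
    obtain ⟨b, hb⟩ := e
    exact ⟨b, (congrArg (· + u) h4).trans hb⟩
  · have e1 : (fun z => Th.fmap (X := N) (Y := TopCat.of Y) (TopCat.ofHom l) (c z)) =
        ((thm (K := n) l).comp cN : C(Sp m, TT n Y)) := by
      funext z
      rw [he]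
      rfl
    have e2 : (fun z => Th.fmap (X := N) (Y := TopCat.of Y) (fun _ => (⟨k₀, h₀⟩ : Y)) (c z)) =
        ((thm (K := n) l').comp cN : C(Sp m, TT n Y)) := by
      funext z
      have h5 : l' = ContinuousMap.const N (⟨k₀, h₀⟩ : Y) :=
        ContinuousMap.ext fun p => Subtype.ext (hl' p)
      rw [he, h5]
      rfl
    rw [e1, e2]
    exact hst

/-- **The converse.** -/
theorem conv (hZ : ZEX) (hT : TWO) (hJ : JC) (hN : NULLC) (hCUT : CUT) (hS : SPLIT)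
    (hL : LOOPY) : P263B15.CONV := by
  intro i q N _ _ c cN hc he hq w hw dw h1 u hu du h0
  obtain ⟨x, hx⟩ : ∃ x : Bool → Cc (sing N), x = fun b => cond b u w := ⟨_, rfl⟩
  have hx1 : ∀ b, Cc.IsDeg q (x b) := fun b => by
    rw [hx]
    cases b
    · exact hw
    · exact hu
  have hx2 : ∀ b, Cc.d (x b) = 0 := fun b => by
    rw [hx]
    cases b
    · exact dw
    · exact du
  obtain ⟨u₁, hu₁, hu₂⟩ := hL (N × Bool) q (glB x) (isDeg_glB hx1) (d_glB_zero hx2)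
  have := pc_TT (N × Bool)
  obtain ⟨Z, _, j, v, hZ2, hv, hvj, hsc, hrz, hh2, hpn⟩ := hZ q hq (TT 1 (N × Bool)) ∞ u₁ hu₁
  obtain ⟨f, y, hy, dy, hf⟩ := hu₂ Z j v hv hvj
  have h2 := hT Z (j ∞) q hq hsc hrz hh2 hpn (i + 1) (by omega)
  rw [show 2 * q + (i + 1) = q + q + (i + 1) by omega] at h2
  have hfb : ∀ b, (Cc.cupC (sing N)).Coh (Cc.pull (singMap (f.comp (inB b))) y) (x b) :=
    fun b => hf.map (Cc.pullHom (singMap (inB b)))
  have hg : ∀ f' : C(N, Lp (j ∞)), ∃ g : C(Sp (q + q + (i + 1)), SuN (i + 1) (kL (j ∞))),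
      (∀ z, g z = JF (i + 1) (kL (j ∞)) f' (cN z)) ∧ g ∞ = Su.inf _ _ := fun f' =>
    ⟨⟨fun z => JF (i + 1) (kL (j ∞)) f' (cN z), (hJ _ _ _ _ f').comp cN.continuous⟩,
      fun _ => rfl, by
        show JF (i + 1) (kL (j ∞)) f' (cN ∞) = _
        rw [hc]
        rfl⟩
  obtain ⟨g₀, hg₀, -⟩ := hg (ContinuousMap.const N (kL (j ∞)))
  obtain ⟨g₁, hg₁, hb₁⟩ := hg (f.comp (inB true))
  obtain ⟨g₂, hg₂, hb₂⟩ := hg (f.comp (inB false))
  have h3 := hN _ _ N _ (kL (j ∞)) cN g₀ hc hg₀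
  have e1 : (Cc.cupC (sing N)).Coh (Cc.pull (singMap (f.comp (inB true))) y) u := by
    have h4 := hfb true
    rw [hx] at h4
    exact h4
  have e2 : (Cc.cupC (sing N)).Coh (Cc.pull (singMap (f.comp (inB false))) y) w := by
    have h4 := hfb false
    rw [hx] at h4
    exact h4
  rcases h2 g₁ g₂ hb₁ hb₂ with h | h | h
  · exact phiZero_of_model hCUT hS (kL (j ∞)) hc he _ hg₁ hg₀ (h.trans h3.symm) hy dy hu du e1
  · have h4 := phiZero_of_model hCUT hS (kL (j ∞)) hc he _ hg₂ hg₀ (h.trans h3.symm) hy dy hw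
      dw e2
    have h5 : Phi (d := q + q) cN hc hw dw = 0 :=
      @Phi_of_phiZero (q + q) i q N _ _ _ hq (by omega) c cN hc he _ h4 w hw dw rfl
    rw [h1] at h5
    exact absurd h5 one_ne_zero
  · have h4 := phi_of_model hCUT hS (kL (j ∞)) (d := q + q) (by omega) hc _ _ hg₁ hg₂ h hy dy hu
      du hw dw e1 e2
    rw [h0, h1] at h4
    exact absurd h4 zero_ne_one

end Vale.Agent.P263B25
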