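import Vale.Agent.P263B25.Good
import Vale.Agent.P263B6.Rows

/-!
# P263B, the fundamental class, III: framed manifolds

* `tub_nd` : duality in the degrees `0` and `d` for `D : Tub (d + (i + 1)) (i + 1)`.
* `tub_bump` : the class of the duality map at `p` has support at `p` and integral one.
* `fund : TUB → FUND`.
-/

open Finset OnePoint Topology CategoryTheory

namespace Vale.Agent.P263B25

open Vale.Agent.P263 Vale.Agent.P263A
open Vale.Agent.P263.S hiding sn sn_add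
open Vale.Agent.P263.E Vale.Agent.P263.H83 Vale.Agent.P263.G2 Vale.Agent.P263.TJ
open Vale.Agent.P263.T0 Vale.Agent.P263.FR

set_option linter.unusedSectionVars false

section degree

variable {P : Type} [TopologicalSpace P] [CompactSpace P] [T2Space P] {d i : ℕ}

/-- the class of a map `h` to the sphere with `h ∘ c` homotopic to the identity has integral one -/
theorem Int_uhat (hd : 0 < d) {c : C(T0.Sph (d + (i + 1)), TT (i + 1) P)} (hc : c ∞ = ∞)
    {h : C(TT (i + 1) P, T0.Sph (d + (i + 1)))} (hh : h ∞ = ∞)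
    (hH : (h.comp c).Homotopic (ContinuousMap.id _)) :
    Int c (isDeg_DstN_uhat (Nat.succ_pos _) h) (d_DstN_uhat (Nat.succ_pos _) hh) = 1 := by
  have hm : 0 < d + (i + 1) := Nat.succ_pos _
  obtain ⟨g1, g2, g3, -⟩ := uhat_spec hm
  have hw : Vn (bsT (i + 1) P) (Cc.pull (singMap h) (uhat (d + (i + 1)))) := by
    intro p σ hσ
    refine g3 p _ fun t => ?_
    show h (toC σ t) ≠ _
    rw [hσ t, hh]
    exact OnePoint.infty_ne_coe _
  have h1 := Int_of hd hc hw (cyc_pull h g2) (isDeg_DstN_uhat hm h) (d_DstN_uhat hm hh)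
    (CupC.Coh.refl _)
  rw [← h1]
  refine z2_one fun hI => ?_
  obtain ⟨y, hy⟩ : ∃ y, y = Cc.pull (singMap (h.comp c)) (uhat (d + (i + 1))) := ⟨_, rfl⟩
  have hdeg : Cc.IsDeg (d + (i + 1)) y := by rw [hy]; exact g1.pull _
  have hdd : Cc.d y = 0 := by rw [hy]; exact cyc_pull _ g2
  have hvn : Vn (bs (d + (i + 1))) y := by
    rw [hy]
    intro p σ hσ
    refine g3 p _ fun t => ?_
    show h (c (toC σ t)) ≠ _
    rw [hσ t, hc, hh]
    exact OnePoint.infty_ne_coe _
  have he : Cc.pull (cu c) (Cc.pull (singMap h) (uhat (d + (i + 1)))) =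
      Cc.pull (mu d (i + 1)) y := by
    rw [hy]
    rfl
  rw [he, evc_fcyc] at hI
  have hvb : Vn (bdX (sing (T0.Sph d)) (i + 1)) (Cc.pull (mu d (i + 1)) y) :=
    (hvn.pull (mu d (i + 1))).mono fun x hx => mu_base hx
  have h2 : Cc.IsDeg d (DstN (i + 1) (Cc.pull (mu d (i + 1)) y)) := isDeg_DstN (hdeg.pull _)
  have h3 : Cc.d (DstN (i + 1) (Cc.pull (mu d (i + 1)) y)) = 0 := by
    rw [← DstN_d hvb, ← pull_d, hdd, pull_zero, DstN_zero]
  obtain ⟨a, ha⟩ := TJ.exists_of_coh ((SphCc.coh_iff hd h2 h3).2 hI)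
  obtain ⟨w, hw'⟩ := mu_inj hd (z := Cc.mkRel (bs (d + (i + 1))) _ hvn) hdeg
    (Cc.rel_ext hdd) ⟨a, ha⟩
  have h4 := congrArg Cc.val hw'
  rw [Cc.val_add, Cc.val_zero, add_zero] at h4
  have h5 : y = Cc.d (Cc.val w) := h4
  obtain ⟨b, hb⟩ := pull_htpc hH g2
  rw [← hy, h5] at hb
  refine uhat_ne hm ⟨Cc.val w + b, ?_⟩
  rw [TJ.d_add, ← hb, ← add_assoc (Cc.d (Cc.val w)), cc_self, zero_add]
  rfl

end degree

section tub

variable {d i : ℕ} (D : Tub (d + (i + 1)) (i + 1)) [CompactSpace (Mfd D.F)] [T2Space (Mfd D.F)]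

/-- the collapse map -/
noncomputable def cD : C(T0.Sph (d + (i + 1)), TT (i + 1) (Mfd D.F)) := ⟨D.c0, D.continuous_c0⟩

theorem tub_nd (hd : 0 < d) : ND (N := Mfd D.F) (cD D) := by
  intro u hu du hI
  obtain ⟨T, hT, hH⟩ := D.exists_Th
  have hm : 0 < d + (i + 1) := by omega
  obtain ⟨ι, _, x, s, hs⟩ := kun_top' (X := Mfd D.F) (Y := Mfd D.F) (fun j _ => D.finC j)
    (isDeg_DstN_uhat hm T) (d_DstN_uhat hm hT)
  refine FR.nondeg (β := fun k => (x k).b) (α := fun k => (x k).a) (r := fun k => (x k).m)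
    (p := fun k => (x k).n) (c := cD D) hd (T := T) (Θ := D.Th T hT)
    (c₁ := D.cM) D.c0_infty hT (D.Th_infty hT) ?_ (fun z p => rfl) ?_ (fun k => (x k).hb)
    (fun k => (x k).db) (fun k => (x k).ha) (fun k => (x k).da) (s₀ := s) ?_ hu du ?_
  · rintro z ⟨x, p⟩
    rw [smP_eq_prT, smP_eq_prT, D.Th_prT]
  · have h1 : D.jM = smP (d + (i + 1)) (Mfd D.F) := by
      apply ContinuousMap.ext
      rintro ⟨z, p⟩
      exact (smP_eq_prT z p).symm
    rw [← h1]
    exact hH.homotopic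
  · exact cc_of_eq hs
  · intro a p ha da hp h1 h2
    have hp0 : p = 0 := by omega
    subst hp0
    exact hI a ha da

theorem tub_bump (hd : 0 < d) (p : Mfd D.F) :
    ∃ (w : Cc (sing (Mfd D.F))) (hw : Bump d p w), Int (cD D) hw.deg hw.cyc = 1 := by
  obtain ⟨A, δ, r, ε, k⟩ := D.exists_cst (η := 1) one_pos
  have hm : 0 < d + (i + 1) := by omega
  obtain ⟨h, hh⟩ : ∃ h : C(TT (i + 1) (Mfd D.F), T0.Sph (d + (i + 1))),
      ∀ y, h y = k.T (smT (y, p)) :=
    ⟨k.T.comp ⟨fun y => smT (y, p), continuous_smT.comp (Continuous.prodMk_left p)⟩, fun _ => rfl⟩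
  have h0 : h ∞ = ∞ := by rw [hh, smT_infty, k.T_infty]
  have h1 : ∀ (z : T0.Sph (i + 1)) (x : Mfd D.F), x ≠ p →
      h (smP (i + 1) (Mfd D.F) (z, x)) ≠ ((0 : Fin (d + (i + 1)) → ℝ) : T0.Sph (d + (i + 1))) := by
    intro z x hx h2
    induction z using OnePoint.rec with
    | infty =>
      rw [smP_infty, h0] at h2
      exact OnePoint.infty_ne_coe _ h2
    | coe v =>
      have h3 : k.T (((v, (x, p)) : (Fin (i + 1) → ℝ) × (Mfd D.F × Mfd D.F)) :
          OnePoint ((Fin (i + 1) → ℝ) × (Mfd D.F × Mfd D.F))) =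
          ((0 : Fin (d + (i + 1)) → ℝ) : OnePoint (Fin (d + (i + 1)) → ℝ)) := (hh _).symm.trans h2
      have h4 := (k.T_ne (by rw [h3]; exact OnePoint.coe_ne_infty _)).1
      rw [k.T_of_le h4] at h3
      have h5 : x.1 + A x.1 v = p.1 := sub_eq_zero.1 (Tub.fr_eq_zero h3)
      have h6 := k.zero x.1 (D.mem_Z x) v h4 (by rw [h5]; exact (D.mem_Z p).2)
      rw [h6, map_zero, add_zero] at h5
      exact hx (Subtype.ext h5)
  refine ⟨_, ⟨isDeg_DstN_uhat hm h, d_DstN_uhat hm h0, Vn_DstN _ fun n z hz => ?_⟩,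
    Int_uhat hd D.c0_infty h0 ?_⟩
  · exact (uhat_spec hm).2.2.1 n _ fun t => h1 _ _ (hz t)
  · obtain ⟨G⟩ := k.homotopic_prM
    refine ⟨⟨⟨fun a => G (a.1, (a.2, p)), by fun_prop⟩, fun z => ?_, fun z => ?_⟩⟩
    · show G (0, (z, p)) = h (D.c0 z)
      rw [G.apply_zero, hh]
      rfl
    · show G (1, (z, p)) = z
      rw [G.apply_one]
      rfl

theorem tub_good (hd : 0 < d) : Good (N := Mfd D.F) (cD D) :=
  ⟨D.c0_infty, tub_nd D hd, D.finC, tub_bump D hd⟩

theorem lc_good (hd : 0 < d) {N : TopCat.{0}} [CompactSpace N] [T2Space N] (l : Mfd D.F ≃ₜ N) :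
    Good (N := N) (d := d) (i := i) (D.lc (l : C(Mfd D.F, N))) := by
  refine (tub_good D hd).homeo l (D.lc_infty _) fun u hu du => ?_
  have e : D.lc (l : C(Mfd D.F, N)) = (thm (l : C(Mfd D.F, N))).comp (cD D) :=
    ContinuousMap.ext fun z => D.lc_apply _ z
  rw [← Int_nat (c := cD D) (l : C(Mfd D.F, N)) hd D.c0_infty hu du, ← e]

end tub

/-- **The fundamental class of a framed manifold.** -/
theorem fund (tub : TUB) : FUND := by
  intro d i F hd hF hR
  obtain ⟨D, l, hl⟩ := tub _ _ F hF hR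
  have := D.compactSpace_Mfd
  have := D.t2Space_Mfd
  constructor
  · have : CompactSpace (Mfd F) := l.compactSpace
    have : T2Space (Mfd F) := l.t2Space
    exact (lc_good D hd l).existsUnique hd
  · intro c z hc hz _ _ cN hcN u hu du
    have h1 := hl c hc cN hcN
    have h2 : cN ∞ = ∞ := by
      obtain ⟨G⟩ := h1
      exact (G.fst_eq_snd (Set.mem_singleton _)).trans (D.lc_infty _)
    rw [Int_htpy hd h2 h1 hu du]
    exact (lc_good D hd l).int_eq hd hz hu du

end Vale.Agent.P263B25
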