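import Vale.Agent.P263B25.Span
import Vale.Agent.P263B6.Defs

/-!
# P263B, the fundamental class, II: existence and uniqueness from duality

* `Good c` : duality in the degrees `0` and `d`, finiteness, classes with support at a point.
* `Good.int_eq` : `Int c u = ⟨u, z⟩` if `IsFund z`.
* `Good.existsUnique` : there is exactly one `z` with `IsFund z`.
* `Good.homeo` : transport along a homeomorphism.
-/

open Finset OnePoint Topology CategoryTheory

namespace Vale.Agent.P263B25

open Vale.Agent.P263 Vale.Agent.P263A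
open Vale.Agent.P263.S hiding sn sn_add
open Vale.Agent.P263.E Vale.Agent.P263.H83 Vale.Agent.P263.G2 Vale.Agent.P263.TJ
open Vale.Agent.P263.T0 Vale.Agent.P263.FR

set_option linter.unusedSectionVars false

section local_classes

variable {N : TopCat.{0}} {d : ℕ}

theorem emb_punct (p : N) : IsEmbedding (punct p).hom := IsEmbedding.subtypeVal

theorem range_punct (p : N) : Set.range (punct p).hom = {x | x ≠ p} := Subtype.range_coe

theorem pull_punct {p : N} {w : Cc (sing N)} :
    Vn (inU {x | x ≠ p}) w ↔ Cc.pull (singMap (punct p).hom) w = 0 := by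
  rw [← range_punct]
  exact Vn_range_iff (emb_punct p)

/-- a class with support at `p` vanishes on the classes which come from the complement -/
theorem cl_bump_range {p : N} {w : Cc (sing N)} (hw : Bump d p w) {z : (ST.H d).obj N}
    (hz : z ∈ Set.range ((ST.H d).map (punct p)).hom) : FR.cl d w hw.cyc z = 0 := by
  obtain ⟨y, rfl⟩ := hz
  have h0 := pull_punct.1 hw.vn
  have h1 : Cc.d (Cc.pull (singMap (punct p).hom) w) = 0 := by rw [h0, TJ.d_zero]
  have h2 := pull_cl (q := d) (punct p) w hw.cyc h1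
  have h3 : FR.cl d (Cc.pull (singMap (punct p).hom) w) h1 = 0 :=
    (cl_eq_zero_iff h1 (hw.deg.pull _)).2 ⟨0, by rw [h0, TJ.d_zero]⟩
  rw [h3] at h2
  exact LinearMap.congr_fun h2 y

/-- a class which does not come from the complement is detected by a class with support at `p` -/
theorem exists_bump (hd : 0 < d) {p : N} {z : (ST.H d).obj N}
    (hz : z ∉ Set.range ((ST.H d).map (punct p)).hom) :
    ∃ (w : Cc (sing N)) (hw : Bump d p w), FR.cl d w hw.cyc z = 1 := by
  obtain ⟨x, hx1, hx2⟩ := Submodule.exists_dual_map_eq_bot_of_notMem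
    (p := LinearMap.range ((ST.H d).map (punct p)).hom) (x := z) hz inferInstance
  have hx3 : Coh.pull (punct p) x = 0 := by
    ext y
    have h1 : x (((ST.H d).map (punct p)).hom y) ∈
        (LinearMap.range ((ST.H d).map (punct p)).hom).map x := ⟨_, ⟨y, rfl⟩, rfl⟩
    rw [hx2] at h1
    exact h1
  obtain ⟨u, du, hu, rfl⟩ := exists_cl (X := N) (q := d) x
  have h1 : Cc.d (Cc.pull (singMap (punct p).hom) u) = 0 := by rw [← pull_d, du, pull_zero]
  rw [pull_cl (punct p) u du h1] at hx3
  obtain ⟨k, rfl⟩ : ∃ k, d = k + 1 := ⟨d - 1, by omega⟩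
  obtain ⟨b, hb, hb'⟩ := (cl_succ_eq_zero_iff h1 (hu.pull _)).1 hx3
  obtain ⟨e, he⟩ : ∃ e : Cc (sing N), e = extJ (emb_punct p) b := ⟨_, rfl⟩
  have he1 : Cc.IsDeg k e := by rw [he]; exact isDeg_extJ _ hb
  have he2 : Cc.pull (singMap (punct p).hom) e = b := by rw [he]; exact pull_extJ _ b
  have hw : Bump (k + 1) p (u + Cc.d e) := by
    refine ⟨isDeg_add hu he1.d, cyc_add du (TJ.d_d e), pull_punct.2 ?_⟩
    rw [pull_add, pull_d, he2, hb', cc_self]
  refine ⟨u + Cc.d e, hw, ?_⟩
  have h2 : FR.cl (k + 1) (u + Cc.d e) hw.cyc = FR.cl (k + 1) u du := by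
    refine (cl_eq_iff hw.cyc du hw.deg hu).2 ⟨e, ?_⟩
    rw [add_right_comm, cc_self, zero_add]
  rw [h2]
  exact z2_one hx1

theorem eq_of_pair {z z' : (ST.H d).obj N} (h : ∀ x : Coh d N, x z = x z') : z = z' := by
  rw [← sub_eq_zero, ← Module.forall_dual_apply_eq_zero_iff (ZMod 2)]
  intro x
  rw [map_sub, h x, sub_self]

end local_classes

section good

variable {N N' : TopCat.{0}} [CompactSpace N] [T2Space N] [CompactSpace N'] [T2Space N'] {d i : ℕ}

/-- what is needed of the collapse map -/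
structure Good (c : C(T0.Sph (d + (i + 1)), TT (i + 1) N)) : Prop where
  base : c ∞ = ∞
  nd : ND c
  fin : ∀ j, FinC N j
  bump : ∀ p : N, ∃ (w : Cc (sing N)) (hw : Bump d p w), Int c hw.deg hw.cyc = 1

variable {c : C(T0.Sph (d + (i + 1)), TT (i + 1) N)}

/-- **The integral is the value on the fundamental class.** -/
theorem int_eq_of_isFund (hd : 0 < d) (hc : c ∞ = ∞) (hN : ND c) (h0 : FinC N 0)
    {z : (ST.H d).obj N} (hz : IsFund z) {u : Cc (sing N)} (hu : Cc.IsDeg d u)
    (du : Cc.d u = 0) : Int c hu du = FR.cl d u du z := by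
  choose w hw h1 using fun p => exists_bump hd (hz p)
  have h2 : ∀ p, Int c (hw p).deg (hw p).cyc = 1 := fun p =>
    Int_bump_eq_one hd hc hN (hw p) fun h => by
      have h3 := h1 p
      rw [h] at h3
      exact zero_ne_one h3
  have h3 : intL hd c hc = Module.Dual.eval (ZMod 2) _ z := by
    refine LinearMap.ext_on_range (span_bump hd hc hN h0 hw h2) fun p => ?_
    rw [intL_cl hd hc (hw p).deg, h2]
    exact (h1 p).symm
  rw [← intL_cl hd hc hu du, h3]
  rfl

theorem Good.int_eq (G : Good c) (hd : 0 < d) {z : (ST.H d).obj N} (hz : IsFund z)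
    {u : Cc (sing N)} (hu : Cc.IsDeg d u) (du : Cc.d u = 0) : Int c hu du = FR.cl d u du z :=
  int_eq_of_isFund hd G.base G.nd (G.fin 0) hz hu du

/-- **The fundamental class exists and is unique.** -/
theorem Good.existsUnique (G : Good c) (hd : 0 < d) : ∃! z : (ST.H d).obj N, IsFund z := by
  have hf : Finite (Coh d N) := finite_coh (G.fin d)
  have h1 : Module.Finite (ZMod 2) (Module.Dual (ZMod 2) ((ST.H d).obj N)) :=
    Module.Finite.of_finite (M := Coh d N)
  have h2 : Module.Finite (ZMod 2) ((ST.H d).obj N) := (Module.finite_dual_iff (ZMod 2)).1 h1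
  obtain ⟨z, hz⟩ := (Module.bijective_dual_eval (ZMod 2) ((ST.H d).obj N)).2 (intL hd c G.base)
  have h3 : IsFund z := by
    intro p hp
    obtain ⟨w, hw, h4⟩ := G.bump p
    have h5 := cl_bump_range hw hp
    have h6 : Module.Dual.eval (ZMod 2) _ z (FR.cl d w hw.cyc) = 0 := h5
    rw [hz, intL_cl hd G.base hw.deg, h4] at h6
    exact one_ne_zero h6
  refine ⟨z, h3, fun y hy => eq_of_pair fun x => ?_⟩
  rw [← cl_rep x, ← G.int_eq hd hy (rep_deg x), ← G.int_eq hd h3 (rep_deg x)]

/-- a class which comes from the complement of every point is zero -/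
theorem Good.eq_zero (G : Good c) (hd : 0 < d) {z : (ST.H d).obj N}
    (hz : ∀ p : N, z ∈ Set.range ((ST.H d).map (punct p)).hom) : z = 0 := by
  choose w hw h1 using G.bump
  have h3 : Module.Dual.eval (ZMod 2) _ z = 0 :=
    LinearMap.ext_on_range (span_bump hd G.base G.nd (G.fin 0) hw h1) fun p =>
      cl_bump_range (hw p) (hz p)
  refine eq_of_pair fun x => ?_
  rw [map_zero]
  exact LinearMap.congr_fun h3 x

theorem pull_symm {M M' : Type} [TopologicalSpace M] [TopologicalSpace M'] (l : M ≃ₜ M')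
    (u : Cc (sing M')) :
    Cc.pull (singMap (l.symm : C(M', M))) (Cc.pull (singMap (l : C(M, M'))) u) = u := by
  funext n σ
  exact congrArg (u n) (ContinuousMap.ext fun t => l.apply_symm_apply _)

theorem pull_symm' {M M' : Type} [TopologicalSpace M] [TopologicalSpace M'] (l : M ≃ₜ M')
    (u : Cc (sing M)) :
    Cc.pull (singMap (l : C(M, M'))) (Cc.pull (singMap (l.symm : C(M', M))) u) = u := by
  funext n σ
  exact congrArg (u n) (ContinuousMap.ext fun t => l.symm_apply_apply _)

theorem finC_homeo {M M' : Type} [TopologicalSpace M] [TopologicalSpace M'] (l : M ≃ₜ M') {j : ℕ}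
    (h : FinC M j) : FinC M' j := by
  classical
  obtain ⟨S, hS⟩ := h
  refine ⟨S.image (Cc.pull (singMap (l.symm : C(M', M)))), fun u hu du => ?_⟩
  obtain ⟨s, hs, b, hb⟩ := hS (Cc.pull (singMap (l : C(M, M'))) u) (hu.pull _)
    (by rw [← pull_d, du, pull_zero])
  refine ⟨_, Finset.mem_image_of_mem _ hs, Cc.pull (singMap (l.symm : C(M', M))) b, ?_⟩
  rw [← pull_d, ← hb, pull_add, pull_symm]

theorem cyc_pull {M M' : Type} [TopologicalSpace M] [TopologicalSpace M'] (l : C(M, M'))
    {u : Cc (sing M')} (du : Cc.d u = 0) : Cc.d (Cc.pull (singMap l) u) = 0 := by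
  rw [← pull_d, du, pull_zero]

/-- transport along a homeomorphism -/
theorem Good.homeo (G : Good c) (l : N ≃ₜ N') {c' : C(T0.Sph (d + (i + 1)), TT (i + 1) N')}
    (hc' : c' ∞ = ∞)
    (h : ∀ (u : Cc (sing N')) (hu : Cc.IsDeg d u) (du : Cc.d u = 0),
      Int c' hu du = Int c (hu.pull (singMap (l : C(N, N')))) (cyc_pull _ du)) : Good c' := by
  refine ⟨hc', fun u hu du hI => ?_, fun j => finC_homeo l (G.fin j), fun p => ?_⟩
  · obtain ⟨b, hb⟩ := G.nd (Cc.pull (singMap (l : C(N, N'))) u) (hu.pull _) (cyc_pull _ du)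
      fun a ha da => by
        rw [← hI (Cc.pull (singMap (l.symm : C(N', N))) a) (ha.pull _) (cyc_pull _ da), h]
        refine Int_congr ?_ _ _ _ _
        rw [pull_cup, pull_symm']
    refine ⟨Cc.pull (singMap (l.symm : C(N', N))) b, ?_⟩
    rw [← pull_d, ← hb, pull_symm]
  · obtain ⟨w, hw, h1⟩ := G.bump (l.symm p)
    refine ⟨Cc.pull (singMap (l.symm : C(N', N))) w, ⟨hw.deg.pull _, cyc_pull _ hw.cyc, ?_⟩, ?_⟩
    · intro n σ hσ
      exact hw.vn n _ fun t h2 => hσ t (l.symm.injective h2)
    · rw [h, ← h1]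
      exact Int_congr (pull_symm' l w) _ _ _ _

end good

end Vale.Agent.P263B25
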