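import Mathlib.LinearAlgebra.Dual.Lemmas
import Vale.Agent.P263.FR.Dual3
import Vale.Agent.P263.TJ.CmpC

/-!
# P263B, the fundamental class, I: classes with support at a point

`N` is a compact space, `c : S^(d+i+1) → (ℝ^(i+1) × N)⁺` a based map.

* `intL` : the integral `Int c` as a linear form on `Coh d N`.
* `Bump d p w` : `w` is a cocycle of degree `d` which vanishes on the simplices that miss `p`.
* `ND c` : a cocycle `u` of degree `d` with `Int c (a ∪ u) = 0` for all cocycles `a` of degree `0`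
  is a coboundary.
* `span_bump` : under `ND c`, classes `w p` with support at `p` and integral one span `Coh d N`.
-/

open Finset OnePoint Topology CategoryTheory

namespace Vale.Agent.P263B25

open Vale.Agent.P263
open Vale.Agent.P263.S hiding sn sn_add
open Vale.Agent.P263.E Vale.Agent.P263.H83 Vale.Agent.P263.G2 Vale.Agent.P263.TJ
open Vale.Agent.P263.T0 Vale.Agent.P263.FR

set_option linter.unusedSectionVars false

theorem z2_cases (a : ZMod 2) : a = 0 ∨ a = 1 := by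
  revert a
  decide

theorem z2_one {a : ZMod 2} (h : a ≠ 0) : a = 1 := (z2_cases a).resolve_left h

section zero

variable {M : Type} [TopologicalSpace M]

/-- the value of a cochain at a point -/
noncomputable def val0 (a : Cc (sing M)) (p : M) : ZMod 2 :=
  a 0 (ofC (ContinuousMap.const _ p))

theorem dl0_eq (s t : G2.Dl 0) : s = t := by
  apply Subtype.ext
  funext j
  have h1 := s.2.2
  have h2 := t.2.2
  rw [Fin.sum_univ_one] at h1 h2
  have hj : j = 0 := Fin.ext (by have := j.2; omega)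
  rw [hj, h1, h2]

theorem eq_val0 (a : Cc (sing M)) (σ : (sing M).obj 0) (t : G2.Dl 0) :
    a 0 σ = val0 a (toC σ t) := by
  have h : σ = ofC (ContinuousMap.const _ (toC σ t)) :=
    ContinuousMap.ext fun s => congrArg (toC σ) (dl0_eq s t)
  exact congrArg (a 0) h

theorem val0_joined {a : Cc (sing M)} (da : Cc.d a = 0) {x y : M} (h : Joined x y) :
    val0 a x = val0 a y := by
  have : Nonempty (G2.Dl 0) := ⟨stdSimplex.vertex 0⟩
  have h1 : (ContinuousMap.const (G2.Dl 0) x).Homotopic (ContinuousMap.const (G2.Dl 0) y) :=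
    ContinuousMap.homotopic_const_iff.2 h
  obtain ⟨b, hb⟩ := pull_htpc h1 da
  have h2 := congrFun (congrFun hb 0) (ofC (ContinuousMap.id (G2.Dl 0)))
  rw [d_zero_apply] at h2
  exact CharTwo.add_eq_zero.1 h2

theorem joined_simplex {n : ℕ} (σ : C(G2.Dl n, M)) (s t : G2.Dl n) : Joined (σ s) (σ t) := by
  have h : PathConnectedSpace (G2.Dl n) := isPathConnected_iff_pathConnectedSpace.1
    ((convex_stdSimplex ℝ (Fin (n + 1))).isPathConnected ⟨s.1, s.2⟩)
  obtain ⟨γ⟩ : Joined s t := PathConnectedSpace.joined _ _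
  exact ⟨γ.map σ.continuous⟩

/-- a cocycle of degree `d` with support at `p` -/
structure Bump (d : ℕ) (p : M) (w : Cc (sing M)) : Prop where
  deg : Cc.IsDeg d w
  cyc : Cc.d w = 0
  vn : Vn (inU {x | x ≠ p}) w

theorem cup_bump {p : M} {a w : Cc (sing M)} (ha : Cc.IsDeg 0 a) (da : Cc.d a = 0)
    (hw : Vn (inU {x | x ≠ p}) w) {n : ℕ} (σ : (sing M).obj n) :
    Cc.cup 1 a w n σ = val0 a p * w n σ := by
  rw [cup_one_deg0 ha]
  by_cases h : ∀ t, toC σ t ≠ p
  · rw [hw n σ h, mul_zero, mul_zero]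
  · push Not at h
    obtain ⟨t, ht⟩ := h
    congr 1
    rw [eq_val0 a _ (stdSimplex.vertex 0), ← ht]
    exact val0_joined da (joined_simplex (toC σ) _ t)

theorem cup_bump_zero {p : M} {a w : Cc (sing M)} (ha : Cc.IsDeg 0 a) (da : Cc.d a = 0)
    (hw : Vn (inU {x | x ≠ p}) w) (h : val0 a p = 0) : Cc.cup 1 a w = 0 := by
  funext n σ
  rw [cup_bump ha da hw, h, zero_mul]
  rfl

theorem cup_bump_one {p : M} {a w : Cc (sing M)} (ha : Cc.IsDeg 0 a) (da : Cc.d a = 0)
    (hw : Vn (inU {x | x ≠ p}) w) (h : val0 a p = 1) : Cc.cup 1 a w = w := by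
  funext n σ
  rw [cup_bump ha da hw, h, one_mul]

theorem deg_cup0 {d : ℕ} {a u : Cc (sing M)} (ha : Cc.IsDeg 0 a) (hu : Cc.IsDeg d u) :
    Cc.IsDeg d (Cc.cup 1 a u) := ha.cup hu (by omega)

theorem cyc_cup {a u : Cc (sing M)} (da : Cc.d a = 0) (du : Cc.d u = 0) :
    Cc.d (Cc.cup 1 a u) = 0 := by
  rw [d_cup_one, da, du, cup_zero_left, cup_zero_right, add_zero]

theorem cyc_add {u v : Cc (sing M)} (du : Cc.d u = 0) (dv : Cc.d v = 0) : Cc.d (u + v) = 0 := by
  rw [TJ.d_add, du, dv, add_zero]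

/-- the cocycles of degree zero -/
def Z0 (M : Type) [TopologicalSpace M] : Submodule (ZMod 2) (Cc (sing M)) where
  carrier := {a | Cc.IsDeg 0 a ∧ Cc.d a = 0}
  add_mem' ha hb := ⟨isDeg_add ha.1 hb.1, cyc_add ha.2 hb.2⟩
  zero_mem' := ⟨fun _ _ _ => rfl, TJ.d_zero⟩
  smul_mem' r a ha := by
    rcases z2_cases r with rfl | rfl
    · rw [zero_smul]
      exact ⟨fun _ _ _ => rfl, TJ.d_zero⟩
    · rw [one_smul]
      exact ha

theorem z0_ext {a b : Cc (sing M)} (ha : Cc.IsDeg 0 a) (hb : Cc.IsDeg 0 b)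
    (h : ∀ p, val0 a p = val0 b p) : a = b := by
  funext n σ
  by_cases hn : n = 0
  · subst hn
    rw [eq_val0 a σ (stdSimplex.vertex 0), eq_val0 b σ (stdSimplex.vertex 0), h]
  · rw [ha n hn, hb n hn]

theorem finite_Z0 (h : FinC M 0) : Finite (Z0 M) := by
  classical
  obtain ⟨S, hS⟩ := h
  choose s hs b hb using fun a : Z0 M => hS a.1 a.2.1 a.2.2
  refine Finite.of_injective (fun a => (⟨s a, hs a⟩ : S)) fun x y hxy => ?_
  have e : s x = s y := congrArg Subtype.val hxy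
  apply Subtype.ext
  refine z0_ext x.2.1 y.2.1 fun p => ?_
  have h1 := congrFun (congrFun (hb x) 0) (ofC (ContinuousMap.const _ p))
  have h2 := congrFun (congrFun (hb y) 0) (ofC (ContinuousMap.const _ p))
  rw [d_zero_apply] at h1 h2
  rw [e] at h1
  exact (CharTwo.add_eq_zero.1 h1).trans (CharTwo.add_eq_zero.1 h2).symm

/-- evaluation at a point -/
noncomputable def evP (p : M) : Z0 M →ₗ[ZMod 2] ZMod 2 where
  toFun a := val0 a.1 p
  map_add' _ _ := rfl
  map_smul' _ _ := rfl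

theorem mem_span_evP (h : FinC M 0) (K : Z0 M →ₗ[ZMod 2] ZMod 2) :
    K ∈ Submodule.span (ZMod 2) (Set.range (evP (M := M))) := by
  have := finite_Z0 h
  have : FiniteDimensional (ZMod 2) (Z0 M) := Module.Finite.of_finite
  refine FiniteDimensional.mem_span_of_iInf_ker_le_ker fun a ha => ?_
  have h1 : a = 0 := by
    apply Subtype.ext
    refine z0_ext a.2.1 (fun _ _ _ => rfl) fun p => ?_
    exact (Submodule.mem_iInf _).1 ha p
  rw [h1]
  exact Submodule.zero_mem _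

end zero

section main

variable {N : TopCat.{0}} [CompactSpace N] [T2Space N] {d i : ℕ}
  {c : C(T0.Sph (d + (i + 1)), TT (i + 1) N)}

theorem Int_congr {u v : Cc (sing N)} (h : u = v) (hu : Cc.IsDeg d u) (du : Cc.d u = 0)
    (hv : Cc.IsDeg d v) (dv : Cc.d v = 0) : Int c hu du = Int c hv dv := by
  subst h
  rfl

theorem Int_zero (hd : 0 < d) (hc : c ∞ = ∞) {u : Cc (sing N)} (h : u = 0) (hu : Cc.IsDeg d u)
    (du : Cc.d u = 0) : Int c hu du = 0 := by
  subst h
  exact Int_null hd hc hu du (CupC.Coh.refl _)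

theorem Int_cl (hd : 0 < d) (hc : c ∞ = ∞) {u v : Cc (sing N)} (hu : Cc.IsDeg d u)
    (du : Cc.d u = 0) (hv : Cc.IsDeg d v) (dv : Cc.d v = 0)
    (h : FR.cl d u du = FR.cl d v dv) : Int c hu du = Int c hv dv :=
  Int_coh hd hc hu du hv dv ((cl_eq_iff du dv hu hv).1 h)

/-- a cocycle in the class -/
noncomputable def rep (x : Coh d N) : Cc (sing N) := (exists_cl x).choose

theorem rep_cyc (x : Coh d N) : Cc.d (rep x) = 0 := (exists_cl x).choose_spec.choose

theorem rep_deg (x : Coh d N) : Cc.IsDeg d (rep x) := (exists_cl x).choose_spec.choose_spec.1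

theorem cl_rep (x : Coh d N) : FR.cl d (rep x) (rep_cyc x) = x :=
  (exists_cl x).choose_spec.choose_spec.2

/-- the integral as a linear form -/
noncomputable def intL (hd : 0 < d) (c : C(T0.Sph (d + (i + 1)), TT (i + 1) N)) (hc : c ∞ = ∞) :
    Coh d N →ₗ[ZMod 2] ZMod 2 :=
  AddMonoidHom.toZModLinearMap 2 (AddMonoidHom.mk' (fun x => Int c (rep_deg x) (rep_cyc x))
    fun x y => by
      rw [← Int_add hd hc (rep_deg x) (rep_cyc x) (rep_deg y) (rep_cyc y)
        (isDeg_add (rep_deg x) (rep_deg y)) (cyc_add (rep_cyc x) (rep_cyc y))]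
      refine Int_cl hd hc _ _ _ _ ?_
      rw [cl_add d _ _ (rep_cyc x) (rep_cyc y), cl_rep, cl_rep, cl_rep])

theorem intL_cl (hd : 0 < d) (hc : c ∞ = ∞) {u : Cc (sing N)} (hu : Cc.IsDeg d u)
    (du : Cc.d u = 0) : intL hd c hc (FR.cl d u du) = Int c hu du :=
  Int_cl hd hc (rep_deg _) (rep_cyc _) hu du (cl_rep _)

/-- the pairing of the degrees `0` and `d` is nondegenerate -/
def ND (c : C(T0.Sph (d + (i + 1)), TT (i + 1) N)) : Prop :=
  ∀ (u : Cc (sing N)) (hu : Cc.IsDeg d u) (du : Cc.d u = 0),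
    (∀ (a : Cc (sing N)) (ha : Cc.IsDeg 0 a) (da : Cc.d a = 0),
      Int c (deg_cup0 ha hu) (cyc_cup da du) = 0) → ∃ b, u = Cc.d b

theorem Int_cup_bump (hd : 0 < d) (hc : c ∞ = ∞) {p : N} {w : Cc (sing N)} (hw : Bump d p w)
    {a : Cc (sing N)} (ha : Cc.IsDeg 0 a) (da : Cc.d a = 0) :
    Int c (deg_cup0 ha hw.deg) (cyc_cup da hw.cyc) = val0 a p * Int c hw.deg hw.cyc := by
  rcases z2_cases (val0 a p) with h | h
  · rw [h, zero_mul]
    exact Int_zero hd hc (cup_bump_zero ha da hw.vn h) _ _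
  · rw [h, one_mul]
    exact Int_congr (cup_bump_one ha da hw.vn h) _ _ _ _

/-- a class with support at a point is determined by its integral -/
theorem Int_bump_eq_one (hd : 0 < d) (hc : c ∞ = ∞) (hN : ND c) {p : N} {w : Cc (sing N)}
    (hw : Bump d p w) (h : FR.cl d w hw.cyc ≠ 0) : Int c hw.deg hw.cyc = 1 := by
  refine z2_one fun h0 => h ((cl_eq_zero_iff hw.cyc hw.deg).2 (hN w hw.deg hw.cyc ?_))
  intro a ha da
  rw [Int_cup_bump hd hc hw ha da, h0, mul_zero]

/-- the form `a ↦ Int c (a ∪ u)` -/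
noncomputable def pairL (hd : 0 < d) (hc : c ∞ = ∞) {u : Cc (sing N)} (hu : Cc.IsDeg d u)
    (du : Cc.d u = 0) : Z0 N →ₗ[ZMod 2] ZMod 2 :=
  AddMonoidHom.toZModLinearMap 2 (AddMonoidHom.mk'
    (fun a => Int c (deg_cup0 a.2.1 hu) (cyc_cup a.2.2 du)) fun a b => by
      rw [← Int_add hd hc (deg_cup0 a.2.1 hu) (cyc_cup a.2.2 du) (deg_cup0 b.2.1 hu)
        (cyc_cup b.2.2 du) (isDeg_add (deg_cup0 a.2.1 hu) (deg_cup0 b.2.1 hu))
        (cyc_add (cyc_cup a.2.2 du) (cyc_cup b.2.2 du))]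
      exact Int_congr (cup_add_left 1 a.1 b.1 u) _ _ _ _)

theorem Int_cup_add (hd : 0 < d) (hc : c ∞ = ∞) {u v : Cc (sing N)} (hu : Cc.IsDeg d u)
    (du : Cc.d u = 0) (hv : Cc.IsDeg d v) (dv : Cc.d v = 0) {a : Cc (sing N)}
    (ha : Cc.IsDeg 0 a) (da : Cc.d a = 0) :
    Int c (deg_cup0 ha (isDeg_add hu hv)) (cyc_cup da (cyc_add du dv)) =
      Int c (deg_cup0 ha hu) (cyc_cup da du) + Int c (deg_cup0 ha hv) (cyc_cup da dv) := by
  rw [← Int_add hd hc (deg_cup0 ha hu) (cyc_cup da du) (deg_cup0 ha hv) (cyc_cup da dv)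
    (isDeg_add (deg_cup0 ha hu) (deg_cup0 ha hv)) (cyc_add (cyc_cup da du) (cyc_cup da dv))]
  exact Int_congr (cup_add_right 1 a u v) _ _ _ _

/-- **The classes with support at a point span the top cohomology.** -/
theorem span_bump (hd : 0 < d) (hc : c ∞ = ∞) (hN : ND c) (h0 : FinC N 0)
    {w : N → Cc (sing N)} (hw : ∀ p, Bump d p (w p))
    (h1 : ∀ p, Int c (hw p).deg (hw p).cyc = 1) :
    Submodule.span (ZMod 2) (Set.range fun p => FR.cl d (w p) (hw p).cyc) = ⊤ := by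
  obtain ⟨W, hW⟩ : ∃ W, W = Submodule.span (ZMod 2)
    (Set.range fun p => FR.cl d (w p) (hw p).cyc) := ⟨_, rfl⟩
  rw [← hW]
  have hz : FR.cl (X := N) d 0 TJ.d_zero = 0 :=
    (cl_eq_zero_iff _ (fun _ _ _ => rfl)).2 ⟨0, TJ.d_zero.symm⟩
  have key : ∀ K ∈ Submodule.span (ZMod 2) (Set.range (evP (M := N))),
      ∃ (v : Cc (sing N)) (hv : Cc.IsDeg d v) (dv : Cc.d v = 0), FR.cl d v dv ∈ W ∧
        ∀ a : Z0 N, Int c (deg_cup0 a.2.1 hv) (cyc_cup a.2.2 dv) = K a := by
    have hzero : ∃ (v : Cc (sing N)) (hv : Cc.IsDeg d v) (dv : Cc.d v = 0), FR.cl d v dv ∈ W ∧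
        ∀ a : Z0 N, Int c (deg_cup0 a.2.1 hv) (cyc_cup a.2.2 dv) =
          (0 : Z0 N →ₗ[ZMod 2] ZMod 2) a := by
      refine ⟨0, fun _ _ _ => rfl, TJ.d_zero, ?_, fun a => ?_⟩
      · rw [hz]
        exact W.zero_mem
      · exact Int_zero hd hc (cup_zero_right 1 a.1) _ _
    intro K hK
    induction hK using Submodule.span_induction with
    | mem K hK =>
      obtain ⟨p, rfl⟩ := hK
      refine ⟨w p, (hw p).deg, (hw p).cyc, ?_, fun a => ?_⟩
      · rw [hW]
        exact Submodule.subset_span ⟨p, rfl⟩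
      · rw [Int_cup_bump hd hc (hw p) a.2.1 a.2.2, h1, mul_one]
        rfl
    | zero => exact hzero
    | add K K' _ _ ih ih' =>
      obtain ⟨v, hv, dv, hvW, hK⟩ := ih
      obtain ⟨v', hv', dv', hvW', hK'⟩ := ih'
      refine ⟨v + v', isDeg_add hv hv', cyc_add dv dv', ?_, fun a => ?_⟩
      · rw [cl_add d v v' dv dv']
        exact W.add_mem hvW hvW'
      · rw [Int_cup_add hd hc hv dv hv' dv' a.2.1 a.2.2, hK, hK']
        rfl
    | smul r K _ ih =>
      rcases z2_cases r with rfl | rfl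
      · rw [zero_smul]
        exact hzero
      · rw [one_smul]
        exact ih
  refine Submodule.eq_top_iff'.2 fun x => ?_
  obtain ⟨v, hv, dv, hvW, hK⟩ := key _ (mem_span_evP h0 (pairL hd hc (rep_deg x) (rep_cyc x)))
  have h2 := hN (rep x + v) (isDeg_add (rep_deg x) hv) (cyc_add (rep_cyc x) dv) fun a ha da => by
    rw [Int_cup_add hd hc (rep_deg x) (rep_cyc x) hv dv ha da, hK ⟨a, ha, da⟩]
    exact CharTwo.add_self_eq_zero _
  rw [← cl_rep x, (cl_eq_iff (rep_cyc x) dv (rep_deg x) hv).2 h2]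
  exact hvW

end main

end Vale.Agent.P263B25
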